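import Vale.Agent.P269.G1.Oper

/-!
# [c5a] Rules for the covariant derivative of operators and the supertrace
-/

namespace Vale.Agent.P269.G1.H819

open Finset.HasAntidiagonal (antidiagonal)
open Vale.Agent.P269.CI

variable {X : CompleteIntersection} {F : ℕ → ℕ → List (Ins X) → ℂ}

variable (hF : IsGW X F) (h1 : IsGenusOne F)

/-! ### Auxiliary rules -/

theorem der_cst (x : AA hF h1) (c : ℂ) : der hF h1 x (cst X c) = 0 := by
  refine Finset.sum_eq_zero fun i _ => ?_
  have h : MvPowerSeries.pderiv (PowerSeries ℂ) i (cst X c) = 0 := by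
    unfold cst
    exact MvPowerSeries.pderiv_C
  rw [h, mul_zero]

theorem der_zero (x : AA hF h1) : der hF h1 x 0 = 0 := by
  have h := der_add hF h1 x 0 0
  rw [add_zero] at h
  exact left_eq_add.1 h

theorem der_one (x : AA hF h1) : der hF h1 x 1 = 0 := by
  have h := der_mul hF h1 x 1 1
  rw [one_mul, mul_one, one_mul] at h
  exact left_eq_add.1 h

/-- `der x` as an additive homomorphism -/
noncomputable def derHom (x : AA hF h1) : RR X →+ RR X where
  toFun := der hF h1 x
  map_zero' := der_zero hF h1 x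
  map_add' := der_add hF h1 x

theorem der_sum {ι : Type*} (s : Finset ι) (f : ι → RR X) (x : AA hF h1) :
    der hF h1 x (∑ i ∈ s, f i) = ∑ i ∈ s, der hF h1 x (f i) :=
  map_sum (derHom hF h1 x) f s

theorem der_cst_mul (x : AA hF h1) (c : ℂ) (f : RR X) :
    der hF h1 x (cst X c * f) = cst X c * der hF h1 x f := by
  rw [der_mul, der_cst, zero_mul, zero_add]

theorem nab_sub (x y z : AA hF h1) :
    nab hF h1 x (y - z) = nab hF h1 x y - nab hF h1 x z := by
  have h := nab_add hF h1 x (y - z) z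
  rw [sub_add_cancel] at h
  rw [h, add_sub_cancel_right]

theorem nab_bas (x : AA hF h1) (i : Fin (X.dim + 1)) :
    nab hF h1 x (QA.bas (consts hF h1) i) = 0 := by
  funext k
  change der hF h1 x (QA.bas (consts hF h1) i k) = 0
  rw [QA.bas_apply]
  split_ifs
  · exact der_one hF h1 x
  · exact der_zero hF h1 x

theorem trace_eq (T : Module.End (RR X) (AA hF h1)) :
    LinearMap.trace (RR X) (AA hF h1) T =
      ∑ i, T (QA.bas (consts hF h1) i) i := by
  rw [LinearMap.trace_eq_matrix_trace (RR X) (QA.bas (consts hF h1)) T, Matrix.trace]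
  refine Finset.sum_congr rfl fun i _ => ?_
  rw [Matrix.diag_apply, LinearMap.toMatrix_apply]
  exact Pi.basisFun_repr (R := RR X) (η := Fin (X.dim + 1)) _ _

/-! ### The rules -/

theorem nabO_add (x : AA hF h1) (a b : OO hF h1) :
    nabO hF h1 x (a + b) = nabO hF h1 x a + nabO hF h1 x b := by
  refine Prod.ext ?_ ?_
  · refine LinearMap.ext fun z => ?_
    change nab hF h1 x (a.1 z + b.1 z) - (a.1 (nab hF h1 x z) + b.1 (nab hF h1 x z)) =
      (nab hF h1 x (a.1 z) - a.1 (nab hF h1 x z)) + (nab hF h1 x (b.1 z) - b.1 (nab hF h1 x z))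
    rw [nab_add]
    abel
  · funext v
    exact der_add hF h1 x (a.2 v) (b.2 v)

theorem nabO_mul (x : AA hF h1) (a b : OO hF h1) :
    nabO hF h1 x (a * b) = nabO hF h1 x a * b + a * nabO hF h1 x b := by
  refine Prod.ext ?_ ?_
  · refine LinearMap.ext fun z => ?_
    change nab hF h1 x (a.1 (b.1 z)) - a.1 (b.1 (nab hF h1 x z)) =
      (nab hF h1 x (a.1 (b.1 z)) - a.1 (nab hF h1 x (b.1 z))) +
        a.1 (nab hF h1 x (b.1 z) - b.1 (nab hF h1 x z))
    rw [map_sub]
    abel
  · funext v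
    exact der_mul hF h1 x (a.2 v) (b.2 v)

theorem nabO_smul (x : AA hF h1) (g : RR X) (a : OO hF h1) :
    nabO hF h1 x (g • a) = der hF h1 x g • a + g • nabO hF h1 x a := by
  refine Prod.ext ?_ ?_
  · refine LinearMap.ext fun z => ?_
    change nab hF h1 x (g • a.1 z) - g • a.1 (nab hF h1 x z) =
      der hF h1 x g • a.1 z + g • (nab hF h1 x (a.1 z) - a.1 (nab hF h1 x z))
    rw [nab_smul, smul_sub]
    abel
  · funext v
    exact der_mul hF h1 x g (a.2 v)

theorem nabO_mu (x : AA hF h1) : nabO hF h1 x (muO hF h1) = 0 := by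
  refine Prod.ext ?_ ?_
  · refine LinearMap.ext fun z => ?_
    change nab hF h1 x (dd hF h1 z - cst X ((X.dim : ℂ) / 2) • z) -
      (dd hF h1 (nab hF h1 x z) - cst X ((X.dim : ℂ) / 2) • nab hF h1 x z) = 0
    rw [nab_sub, nab_d, nab_smul, der_cst, zero_smul, zero_add, sub_self]
  · funext v
    exact der_cst hF h1 x _

theorem str_comm (a b : OO hF h1) : strO hF h1 (a * b) = strO hF h1 (b * a) := by
  change LinearMap.trace (RR X) (AA hF h1) (a.1 * b.1) +
      cst X ((-1) ^ X.dim) * ∑ v, (a.2 v * b.2 v) =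
    LinearMap.trace (RR X) (AA hF h1) (b.1 * a.1) +
      cst X ((-1) ^ X.dim) * ∑ v, (b.2 v * a.2 v)
  rw [LinearMap.trace_mul_comm]
  congr 2
  exact Finset.sum_congr rfl fun v _ => mul_comm _ _

theorem der_str (x : AA hF h1) (a : OO hF h1) :
    der hF h1 x (strO hF h1 a) = strO hF h1 (nabO hF h1 x a) := by
  change der hF h1 x (LinearMap.trace (RR X) (AA hF h1) a.1 +
      cst X ((-1) ^ X.dim) * ∑ v, a.2 v) =
    LinearMap.trace (RR X) (AA hF h1) (nabEnd hF h1 x a.1) +
      cst X ((-1) ^ X.dim) * ∑ v, der hF h1 x (a.2 v)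
  rw [der_add, der_cst_mul, der_sum, trace_eq, trace_eq, der_sum]
  congr 1
  refine Finset.sum_congr rfl fun i _ => ?_
  have h : nabEnd hF h1 x a.1 (QA.bas (consts hF h1) i) =
      nab hF h1 x (a.1 (QA.bas (consts hF h1) i)) := by
    change nab hF h1 x (a.1 (QA.bas (consts hF h1) i)) -
      a.1 (nab hF h1 x (QA.bas (consts hF h1) i)) = _
    rw [nab_bas, map_zero, sub_zero]
  rw [h]
  rfl

end Vale.Agent.P269.G1.H819
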