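import Vale.Agent.P269.G1.Oper

/-!
# [c5b] Derivatives of the operators of quantum multiplication
-/

namespace Vale.Agent.P269.G1.H819

open Finset.HasAntidiagonal (antidiagonal)
open Vale.Agent.P269.CI

variable {X : CompleteIntersection} {F : ℕ → ℕ → List (Ins X) → ℂ}

variable (hF : IsGW X F) (h1 : IsGenusOne F)

theorem nabO_U (x : AA hF h1) : nabO hF h1 x (CC hF h1 (Eu hF h1)) =
    CC hF h1 x + CC hF h1 x * muO hF h1 - muO hF h1 * CC hF h1 x := by
  refine Prod.ext ?_ ?_
  · refine LinearMap.ext fun z => ?_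
    change nab hF h1 x (Eu hF h1 * z) - Eu hF h1 * nab hF h1 x z =
      x * z + x * (dd hF h1 z - cst X ((X.dim : ℂ) / 2) • z) -
        (dd hF h1 (x * z) - cst X ((X.dim : ℂ) / 2) • (x * z))
    have h := c4_E hF h1 x z
    rw [nab_E] at h
    rw [mul_sub, Algebra.mul_smul_comm]
    linear_combination (exp := 1) h
  · funext v
    change der hF h1 x (∑ i, Eu hF h1 i * lamc h1 i) =
      (∑ i, x i * lamc h1 i) + (∑ i, x i * lamc h1 i) * cst X ((X.hodgeP v : ℂ) - (X.dim : ℂ) / 2)
        - cst X ((X.hodgeP v : ℂ) - (X.dim : ℂ) / 2) * (∑ i, x i * lamc h1 i)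
    rw [der_lamc_E hF h1 v]
    ring

/-- Leibniz rule for the character of the primitive part -/
theorem der_lam (x y : AA hF h1) :
    der hF h1 x (∑ i, y i * lamc h1 i) = (∑ i, nab hF h1 x y i * lamc h1 i) +
      ∑ i, ∑ j, y i * x j * MvPowerSeries.pderiv (PowerSeries ℂ) j (lamc h1 i) := by
  have h0 : der hF h1 x (∑ i, y i * lamc h1 i) = ∑ i, der hF h1 x (y i * lamc h1 i) := by
    change ∑ j, x j * MvPowerSeries.pderiv (PowerSeries ℂ) j (∑ i, y i * lamc h1 i) =
      ∑ i, ∑ j, x j * MvPowerSeries.pderiv (PowerSeries ℂ) j (y i * lamc h1 i)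
    rw [Finset.sum_comm]
    refine Finset.sum_congr rfl fun j _ => ?_
    rw [map_sum, Finset.mul_sum]
  rw [h0, ← Finset.sum_add_distrib]
  refine Finset.sum_congr rfl fun i _ => ?_
  rw [der_mul]
  congr 1
  change y i * ∑ j, x j * MvPowerSeries.pderiv (PowerSeries ℂ) j (lamc h1 i) = _
  rw [Finset.mul_sum]
  exact Finset.sum_congr rfl fun j _ => by ring

theorem c4O_symm (x y : AA hF h1) :
    nabO hF h1 x (CC hF h1 y) - CC hF h1 (nab hF h1 x y) =
      nabO hF h1 y (CC hF h1 x) - CC hF h1 (nab hF h1 y x) := by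
  refine Prod.ext ?_ ?_
  · refine LinearMap.ext fun z => ?_
    change nab hF h1 x (y * z) - y * nab hF h1 x z - nab hF h1 x y * z =
      nab hF h1 y (x * z) - x * nab hF h1 y z - nab hF h1 y x * z
    have h := c4_symm hF h1 x y z
    linear_combination (exp := 1) h
  · funext v
    change der hF h1 x (∑ i, y i * lamc h1 i) - (∑ i, nab hF h1 x y i * lamc h1 i) =
      der hF h1 y (∑ i, x i * lamc h1 i) - (∑ i, nab hF h1 y x i * lamc h1 i)
    rw [der_lam, der_lam, add_sub_cancel_left, add_sub_cancel_left, Finset.sum_comm]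
    refine Finset.sum_congr rfl fun i _ => Finset.sum_congr rfl fun j _ => ?_
    rw [pderiv_lamc h1 v j i]
    ring

end Vale.Agent.P269.G1.H819
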