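import Vale.Agent.P269.G1.Conc
import Vale.Agent.P269.G1.H598.Skew
import Vale.Agent.P269.G1.H598.Root

/-!
# [Q4], [Q5] The difference quotient of the annihilating polynomial of the Euler field
-/

namespace Vale.Agent.P269.G1.H819

open Finset.HasAntidiagonal (antidiagonal)
open Vale.Agent.P269.CI
open Polynomial (aeval)

variable {X : CompleteIntersection} {F : ℕ → ℕ → List (Ins X) → ℂ}

variable (hF : IsGW X F) (h1 : IsGenusOne F)

/-- rational constants -/
theorem algebraMap_rat (X : CompleteIntersection) (q : ℚ) :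
    algebraMap ℚ (RR X) q = cst X (q : ℂ) := by
  have h : cst X (q : ℂ) =
      ((MvPowerSeries.C (σ := Fin (X.dim + 1)) (R := PowerSeries ℂ)).comp
        ((PowerSeries.C (R := ℂ)).comp (Rat.castHom ℂ))) q := rfl
  rw [h]
  exact congrArg (fun f : ℚ →+* RR X => f q) (Subsingleton.elim _ _)

/-- every vector field is a polynomial in the Euler field -/
theorem exists_aeval (hi : index X ≠ 0) (y : AA hF h1) :
    ∃ f : Polynomial (RR X), y = aeval (Eu hF h1) f := by
  obtain ⟨b, hb⟩ := pow_basis hF h1 hi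
  refine ⟨∑ i : Fin (X.dim + 1), Polynomial.C (b.repr y i) * Polynomial.X ^ (i : ℕ), ?_⟩
  rw [map_sum]
  conv_lhs => rw [← b.sum_repr y]
  refine Finset.sum_congr rfl fun i _ => ?_
  rw [map_mul, Polynomial.aeval_C, map_pow, Polynomial.aeval_X, hb, Algebra.smul_def]

/-- the difference quotient on the ambient part -/
theorem skew (hi : index X ≠ 0) (P : Polynomial (RR X)) (hP : aeval (Eu hF h1) P = 0)
    (y : AA hF h1) :
    P.sum (fun n c => ∑ e ∈ antidiagonal n, if e.1 = 0 then 0 else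
      c • (Eu hF h1 ^ (e.1 - 1) * (muO hF h1).1 (Eu hF h1 ^ e.2 * y))) = 0 :=
  H598.skew_zero (Eu hF h1) (exists_aeval hF h1 hi) (muO hF h1).1 (eta hF h1)
    (eta_symm hF h1) (eta_inv hF h1) (eta_nondeg hF h1) (eta_mu hF h1) P hP y

/-- the character of a primitive class -/
noncomputable def lamAt (v : X.Prim) : AA hF h1 →ₐ[RR X] RR X :=
  (Pi.evalAlgHom (RR X) (fun _ : X.Prim => RR X) v).comp (lam hF h1)

/-- the eigenvalues on the primitive part are double roots -/
theorem root (hi : index X ≠ 0) (P : Polynomial (RR X)) (hm : P.Monic)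
    (hd : P.natDegree = X.dim + 1) (hP : aeval (Eu hF h1) P = 0) (v : X.Prim)
    (hv : 2 * X.hodgeP v ≠ X.dim) :
    P.derivative.eval ((lam hF h1 (Eu hF h1)) v) = 0 := by
  obtain ⟨b, hb⟩ := pow_basis hF h1 hi
  obtain ⟨s, hs, hs0⟩ := eta_lam hF h1 v
  exact H598.double_root (Nat.succ_pos _) (Eu hF h1) b hb (lamAt hF h1 v) (eta hF h1)
    (eta_symm hF h1) (eta_inv hF h1) (eta_nondeg hF h1) s hs (hs0 hv) P hm hd hP

/-- sum over an antidiagonal of a commutative word -/
theorem sum_word {R : Type*} [CommRing R] (n : ℕ) (l m : R) :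
    (∑ e ∈ antidiagonal n, if e.1 = 0 then 0 else l ^ (e.1 - 1) * m * l ^ e.2) =
      m * (n * l ^ (n - 1)) := by
  rw [H598.antidiag_shift n (fun a b => l ^ a * m * l ^ b)]
  have h : ∀ i ∈ Finset.range n, l ^ i * m * l ^ (n - 1 - i) = m * l ^ (n - 1) := by
    intro i hi
    have hi' := Finset.mem_range.1 hi
    have e : l ^ (n - 1) = l ^ i * l ^ (n - 1 - i) := by
      rw [← pow_add]
      congr 1
      omega
    rw [e]
    ring
  rw [Finset.sum_congr rfl h, Finset.sum_const, Finset.card_range, nsmul_eq_mul]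
  ring

theorem psi_fst (n : ℕ) (z : AA hF h1) : ((frob hF h1).psi n).1 z =
    ∑ e ∈ antidiagonal n, if e.1 = 0 then 0 else
      (Eu hF h1 ^ (e.1 - 1) * (muO hF h1).1 (Eu hF h1 ^ e.2 * z)) := by
  have h : ((frob hF h1).psi n).1 z =
      ((LinearMap.applyₗ z : Module.End (RR X) (AA hF h1) →ₗ[RR X] AA hF h1).comp
        (LinearMap.fst (RR X) (Module.End (RR X) (AA hF h1)) (X.Prim → RR X)))
          ((frob hF h1).psi n) := rfl
  rw [h, Frob.psi, map_sum]
  refine Finset.sum_congr rfl fun e _ => ?_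
  split_ifs
  · exact map_zero _
  · rfl

theorem psi_snd (n : ℕ) (v : X.Prim) : ((frob hF h1).psi n).2 v =
    cst X ((X.hodgeP v : ℂ) - (X.dim : ℂ) / 2) *
      (n * (lam hF h1 (Eu hF h1)) v ^ (n - 1)) := by
  have h : ((frob hF h1).psi n).2 v =
      ((LinearMap.proj v : (X.Prim → RR X) →ₗ[RR X] RR X).comp
        (LinearMap.snd (RR X) (Module.End (RR X) (AA hF h1)) (X.Prim → RR X)))
          ((frob hF h1).psi n) := rfl
  rw [h, Frob.psi, map_sum, ← sum_word]
  refine Finset.sum_congr rfl fun e _ => ?_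
  split_ifs
  · exact map_zero _
  · change (lam hF h1 (Eu hF h1 ^ (e.1 - 1))) v * _ * (lam hF h1 (Eu hF h1 ^ e.2)) v = _
    rw [map_pow, map_pow]
    rfl

/-- **[Q4]** from `skew_zero` and `double_root` -/
theorem psi_zero (hi : index X ≠ 0) (P : Polynomial (RR X)) (hm : P.Monic)
    (hd : P.natDegree = X.dim + 1) (hP : aeval (Eu hF h1) P = 0) :
    P.sum (fun n c => c • (frob hF h1).psi n) = 0 := by
  rw [Polynomial.sum_def]
  refine Prod.ext ?_ ?_
  · refine LinearMap.ext fun z => ?_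
    have h0 := skew hF h1 hi P hP z
    rw [Polynomial.sum_def] at h0
    rw [Prod.fst_sum, LinearMap.sum_apply]
    refine Eq.trans (Finset.sum_congr rfl fun n _ => ?_) h0
    change P.coeff n • ((frob hF h1).psi n).1 z = _
    rw [psi_fst, Finset.smul_sum]
    refine Finset.sum_congr rfl fun e _ => ?_
    split_ifs
    · exact smul_zero _
    · rfl
  · funext v
    rw [Prod.snd_sum, Finset.sum_apply]
    have h2 : ∀ n ∈ P.support, (P.coeff n • (frob hF h1).psi n).2 v =
        cst X ((X.hodgeP v : ℂ) - (X.dim : ℂ) / 2) *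
          (P.coeff n * (n * (lam hF h1 (Eu hF h1)) v ^ (n - 1))) := by
      intro n _
      change P.coeff n * ((frob hF h1).psi n).2 v = _
      rw [psi_snd]
      ring
    rw [Finset.sum_congr rfl h2, ← Finset.mul_sum]
    change _ = (0 : RR X)
    by_cases hv : 2 * X.hodgeP v = X.dim
    · have h3 : (X.hodgeP v : ℂ) - (X.dim : ℂ) / 2 = 0 := by
        rw [← hv]
        push_cast
        ring
      have h4 : cst X (0 : ℂ) = 0 := by
        unfold cst
        rw [map_zero, map_zero]
      rw [h3, h4, zero_mul]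
    · have h3 := root hF h1 hi P hm hd hP v hv
      rw [Polynomial.derivative_eval, Polynomial.sum_def] at h3
      have h4 : ∑ n ∈ P.support, P.coeff n * ((n : RR X) * (lam hF h1 (Eu hF h1)) v ^ (n - 1)) = 0 := by
        rw [← h3]
        exact Finset.sum_congr rfl fun n _ => by ring
      rw [h4, mul_zero]

/-- **[Q5]** from `skew_zero` -/
theorem phi_zero (hi : index X ≠ 0) (P : Polynomial (RR X)) (hP : aeval (Eu hF h1) P = 0) :
    P.sum (fun n c => c • (frob hF h1).phi n) = 0 := by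
  have h0 := skew hF h1 hi P hP 1
  rw [Polynomial.sum_def] at h0 ⊢
  refine Eq.trans (Finset.sum_congr rfl fun n _ => ?_) h0
  rw [Frob.phi, Finset.smul_sum]
  refine Finset.sum_congr rfl fun e _ => ?_
  split_ifs
  · exact smul_zero _
  · rw [mul_one]
    have h5 : (dd hF h1 (Eu hF h1 ^ e.2) -
        (algebraMap ℚ (RR X) ((X.dim : ℚ) / 2)) • Eu hF h1 ^ e.2) =
        (muO hF h1).1 (Eu hF h1 ^ e.2) := by
      rw [algebraMap_rat]
      change _ = dd hF h1 (Eu hF h1 ^ e.2) - cst X ((X.dim : ℂ) / 2) • Eu hF h1 ^ e.2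
      congr 3
      push_cast
      ring
    change P.coeff n • (Eu hF h1 ^ (e.1 - 1) * (dd hF h1 (Eu hF h1 ^ e.2) -
        (algebraMap ℚ (RR X) ((X.dim : ℚ) / 2)) • Eu hF h1 ^ e.2)) = _
    rw [h5]

end Vale.Agent.P269.G1.H819
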